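import Vale.Agent.P204.Gen.ShiftParam
import Vale.Agent.P204.Gen.GeoClosedV
import Vale.Agent.P204.Gen.Shift

/-!
P247, general four-manifold: the Cartan formula for a cut-off translation on `ℝ⁴`.

With `f s w = w + s χ(w) t` and `a` closed, `d/ds (f s)^* a = d β s`, where
`β s = (f s)^* (ι_(χ t) a)` as a one-form.
-/

open Set Filter Topology
open scoped ContDiff

namespace Vale.Agent.P247.Gen

open Vale.Agent.P204 Vale.Agent.P204.Torus Vale.Agent.P204.Gen

lemma hasDerivAt_ev {α : ℝ → Form} {x y : ℝ → V} {α' : Form} {x' y' : V} {s : ℝ}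
    (hα : HasDerivAt α α' s) (hx : HasDerivAt x x' s) (hy : HasDerivAt y y' s) :
    HasDerivAt (fun σ => ev (α σ) (x σ) (y σ))
      (ev α' (x s) (y s) + ev (α s) x' (y s) + ev (α s) (x s) y') s := by
  have ha : ∀ k, HasDerivAt (fun σ => α σ k) (α' k) s := fun k =>
    ((EuclideanSpace.proj (𝕜 := ℝ) k).hasFDerivAt).comp_hasDerivAt s hα
  have hxi : ∀ j, HasDerivAt (fun σ => x σ j) (x' j) s := hasDerivAt_pi.1 hx
  have hyi : ∀ j, HasDerivAt (fun σ => y σ j) (y' j) s := hasDerivAt_pi.1 hy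
  have h := HasDerivAt.sum (u := (Finset.univ : Finset (Fin 6)))
    (A := fun k σ => α σ k * (x σ (fi k) * y σ (se k) - y σ (fi k) * x σ (se k)))
    (A' := fun k => α' k * (x s (fi k) * y s (se k) - y s (fi k) * x s (se k))
      + α s k * ((x' (fi k) * y s (se k) + x s (fi k) * y' (se k))
        - (y' (fi k) * x s (se k) + y s (fi k) * x' (se k))))
    fun k _ => (ha k).mul (((hxi _).mul (hyi _)).sub ((hyi _).mul (hxi _)))
  have e1 : (fun σ => ev (α σ) (x σ) (y σ)) = ∑ k : Fin 6,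
      fun σ => α σ k * (x σ (fi k) * y σ (se k) - y σ (fi k) * x σ (se k)) := by
    funext σ
    simp [ev, Finset.sum_apply]
  rw [e1]
  refine h.congr_deriv ?_
  simp only [ev, ← Finset.sum_add_distrib]
  exact Finset.sum_congr rfl fun k _ => by ring

/-- The derivative of the cut-off translation by `τ`. -/
noncomputable def jac (χ : V → ℝ) (τ w : V) : V →L[ℝ] V :=
  ContinuousLinearMap.id ℝ V + (fderiv ℝ χ w).smulRight τ

lemma jac_apply (χ : V → ℝ) (τ w u : V) : jac χ τ w u = u + fderiv ℝ χ w u • τ := by simp [jac]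

/-- The integrand of the primitive, at time `p.1` and translation `p.2`. -/
noncomputable def kh (χ : V → ℝ) (a : V → Form) (p : ℝ × V) (w : V) : V :=
  pullV (jac χ (p.1 • p.2) w) (iota (χ w • p.2) (a (Gen.shift χ (p.1 • p.2) w)))

lemma pair_kh (χ : V → ℝ) (a : V → Form) (p : ℝ × V) (w v : V) :
    pair (kh χ a p w) v =
      ev (a (w + χ w • (p.1 • p.2))) (χ w • p.2) (jac χ (p.1 • p.2) w v) := by
  rw [kh, pair_pullV, pair_iota]
  rfl

lemma kh_eq_zero {χ : V → ℝ} (a : V → Form) (p : ℝ × V) {w : V} (hw : χ w = 0) :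
    kh χ a p w = 0 := by
  refine covec_ext fun v => ?_
  rw [pair_kh, hw, zero_smul, zero_smul, add_zero]
  simp [pair, ev_def]

lemma contDiffAt_iota {E : Type*} [NormedAddCommGroup E] [NormedSpace ℝ E] {q : E} {v : E → V}
    (hv : ContDiffAt ℝ ∞ v q) {f : E → Form} (hf : ContDiffAt ℝ ∞ f q) :
    ContDiffAt ℝ ∞ (fun x => iota (v x) (f x)) q := by
  refine contDiffAt_pi.2 fun j => ?_
  simp only [iota, ev]
  exact ContDiffAt.sum fun k _ => ((contDiffAt_piLp (p := 2)).1 hf k).mul
    (((contDiffAt_pi.1 hv _).mul contDiffAt_const).sub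
      (contDiffAt_const.mul (contDiffAt_pi.1 hv _)))

/-- The integrand is smooth where the translated point stays in `U`. -/
theorem contDiffOn_kh {χ : V → ℝ} (hχ : ContDiff ℝ ∞ χ) {a : V → Form} {U : Set V}
    (hU : IsOpen U) (ha : ContDiffOn ℝ ∞ a U) {S : Set (ℝ × V)} {W : Set V}
    (hmap : ∀ p ∈ S, ∀ w ∈ W, Gen.shift χ (p.1 • p.2) w ∈ U) :
    ContDiffOn ℝ ∞ (fun q : (ℝ × V) × V => kh χ a q.1 q.2) (S ×ˢ W) := by
  rintro ⟨p, w⟩ ⟨hp, hw⟩
  refine ContDiffAt.contDiffWithinAt ?_
  have h1 : ContDiffAt ℝ ∞ (fun q : (ℝ × V) × V => q.1.1 • q.1.2) (p, w) :=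
    (contDiffAt_fst.comp (p, w) contDiffAt_fst).smul
      (contDiffAt_snd.comp (p, w) contDiffAt_fst)
  have hf : ContDiffAt ℝ ∞
      (fun q : (ℝ × V) × V => Gen.shift χ (q.1.1 • q.1.2) q.2) (p, w) :=
    ContDiffAt.comp (p, w) (g := fun z : V × V => Gen.shift χ z.1 z.2)
      (contDiff_shift hχ).contDiffAt (h1.prodMk contDiffAt_snd)
  have hd : ContDiffAt ℝ ∞ (fun q : (ℝ × V) × V => fderiv ℝ χ q.2) (p, w) :=
    ((hχ.fderiv_right (m := ∞) le_rfl).contDiffAt).comp (p, w) contDiffAt_snd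
  have hj : ContDiffAt ℝ ∞ (fun q : (ℝ × V) × V => jac χ (q.1.1 • q.1.2) q.2) (p, w) := by
    unfold jac
    exact contDiffAt_const.add (hd.smulRight h1)
  exact contDiffAt_pullV hj (contDiffAt_iota
    (((hχ.contDiffAt).comp (p, w) contDiffAt_snd).smul (contDiffAt_snd.comp (p, w) contDiffAt_fst))
    (ContDiffAt.comp (p, w) (g := a) ((ha.contDiffAt (hU.mem_nhds (hmap p hp w hw)))) hf))

/-- The Cartan formula. -/
theorem hasDerivAt_pull_shift {χ : V → ℝ} (hχ : ContDiff ℝ ∞ χ) {a : V → Form} {U : Set V}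
    (hU : IsOpen U) (ha : ContDiffOn ℝ ∞ a U) (hcl : ∀ x ∈ U, ∀ u v z, cyc a x u v z = 0)
    {t w : V} {s : ℝ} (hs : Gen.shift χ (s • t) w ∈ U)
    (hb : DifferentiableAt ℝ (kh χ a (s, t)) w) :
    HasDerivAt (fun σ : ℝ => pull (jac χ (σ • t) w) (a (Gen.shift χ (σ • t) w)))
      (d1 (kh χ a (s, t)) w) s := by
  set x := Gen.shift χ (s • t) w with hx
  have hax : HasFDerivAt a (fderiv ℝ a x) x :=
    ((ha.contDiffAt (hU.mem_nhds hs)).differentiableAt (by simp)).hasFDerivAt
  set a' := fderiv ℝ a x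
  set c := χ w
  set b' := fderiv ℝ (kh χ a (s, t)) w
  set dc := fderiv ℝ χ w
  -- the derivative along a line in the point
  have hline : ∀ u v : V, pair (b' u) v =
      ev (a' (u + dc u • (s • t))) (c • t) (v + dc v • (s • t))
        + ev (a x) (dc u • t) (v + dc v • (s • t)) := by
    intro u v
    have hl : HasDerivAt (fun σ : ℝ => w + σ • u) u 0 := by
      simpa using ((hasDerivAt_id (0 : ℝ)).smul_const u).const_add w
    have h1 : HasDerivAt (fun σ : ℝ => pair (kh χ a (s, t) (w + σ • u)) v) (pair (b' u) v) 0 := by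
      have hk : HasDerivAt (fun σ : ℝ => kh χ a (s, t) (w + σ • u)) (b' u) 0 :=
        HasFDerivAt.comp_hasDerivAt_of_eq (0 : ℝ) hb.hasFDerivAt hl (by simp)
      simp only [pair]
      exact HasDerivAt.fun_sum fun j _ => (hasDerivAt_pi.1 hk j).mul_const (v j)
    have hc : HasDerivAt (fun σ : ℝ => χ (w + σ • u)) (dc u) 0 :=
      HasFDerivAt.comp_hasDerivAt_of_eq (0 : ℝ)
        ((hχ.differentiable (by simp)) w).hasFDerivAt hl (by simp)
    have hdc : HasDerivAt (fun σ : ℝ => fderiv ℝ χ (w + σ • u) v)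
        (fderiv ℝ (fun z => fderiv ℝ χ z v) w u) 0 :=
      HasFDerivAt.comp_hasDerivAt_of_eq (0 : ℝ)
        ((((hχ.fderiv_right (m := ∞) le_rfl).clm_apply contDiff_const).differentiable
          (by simp)) w).hasFDerivAt hl (by simp)
    have hpt : HasDerivAt (fun σ : ℝ => w + σ • u + χ (w + σ • u) • (s • t))
        (u + dc u • (s • t)) 0 := hl.add (hc.smul_const _)
    have ha' : HasDerivAt (fun σ : ℝ => a (w + σ • u + χ (w + σ • u) • (s • t)))
        (a' (u + dc u • (s • t))) 0 :=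
      HasFDerivAt.comp_hasDerivAt_of_eq (0 : ℝ) hax hpt (by simp [hx, Gen.shift])
    have h2 := hasDerivAt_ev ha' (hc.smul_const t)
      (((hdc.smul_const (s • t))).const_add v)
    have e : (fun σ : ℝ => pair (kh χ a (s, t) (w + σ • u)) v) = fun σ : ℝ =>
        ev (a (w + σ • u + χ (w + σ • u) • (s • t))) (χ (w + σ • u) • t)
          (v + fderiv ℝ χ (w + σ • u) v • (s • t)) := by
      funext σ
      rw [pair_kh, jac_apply]
    rw [e] at h1
    have := h1.unique h2
    simp only [zero_smul, add_zero] at this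
    rw [this, show w + c • (s • t) = x from rfl]
    simp only [ev_smul_left, ev_smul_right, ev_self, mul_zero, add_zero]
    rfl
  -- the derivative in time
  have hder : ∀ u v : V, HasDerivAt
      (fun σ : ℝ => ev (pull (jac χ (σ • t) w) (a (Gen.shift χ (σ • t) w))) u v)
      (ev (a' (c • t)) (u + dc u • (s • t)) (v + dc v • (s • t))
        + ev (a x) (dc u • t) (v + dc v • (s • t))
        + ev (a x) (u + dc u • (s • t)) (dc v • t)) s := by
    intro u v
    have hσ : HasDerivAt (fun σ : ℝ => σ • t) t s := by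
      simpa using (hasDerivAt_id s).smul_const t
    have h1 : HasDerivAt (fun σ : ℝ => w + c • (σ • t)) (c • t) s :=
      (hσ.const_smul c).const_add w
    have ha' : HasDerivAt (fun σ : ℝ => a (w + c • (σ • t))) (a' (c • t)) s :=
      HasFDerivAt.comp_hasDerivAt_of_eq s hax h1 rfl
    have := hasDerivAt_ev ha' ((hσ.const_smul (dc u)).const_add u)
      ((hσ.const_smul (dc v)).const_add v)
    simp only [ev_pull, jac_apply]
    exact this
  have hkey : ∀ u v : V, ev (a' (c • t)) (u + dc u • (s • t)) (v + dc v • (s • t))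
      + ev (a x) (dc u • t) (v + dc v • (s • t)) + ev (a x) (u + dc u • (s • t)) (dc v • t)
      = ev (d1 (kh χ a (s, t)) w) u v := by
    intro u v
    have hev : ev (d1 (kh χ a (s, t)) w) u v = pair (b' u) v - pair (b' v) u := by
      refine ev_ofSkew _ (fun _ _ => by ring) (fun x y z => ?_) (fun r x y => ?_) u v
      · simp only [map_add, pair_def, Pi.add_apply]; ring
      · simp only [map_smul, pair_def, Pi.smul_apply, smul_eq_mul]; ring
    have h := hcl x hs (c • t) (u + dc u • (s • t)) (v + dc v • (s • t))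
    simp only [cyc] at h
    rw [hev, hline, hline]
    rw [ev_skew (a' (u + dc u • (s • t))) (v + dc v • (s • t)) (c • t)] at h
    rw [ev_skew (a x) (u + dc u • (s • t)) (dc v • t)]
    linarith
  have hcoord : ∀ k, HasDerivAt
      (fun σ : ℝ => pull (jac χ (σ • t) w) (a (Gen.shift χ (σ • t) w)) k)
      (d1 (kh χ a (s, t)) w k) s := by
    intro k
    have hk : ∀ β : Form, β k = ev β (e (fi k)) (e (se k)) := fun β => by
      conv_lhs => rw [← ofSkew_ev β]
      rw [ofSkew_apply]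
    simp only [hk _]
    rw [← hkey]
    exact hder _ _
  have hpi := (hasDerivAt_pi (φ := fun σ k =>
    pull (jac χ (σ • t) w) (a (Gen.shift χ (σ • t) w)) k)).2 hcoord
  exact ((PiLp.continuousLinearEquiv 2 ℝ fun _ : Fin 6 => ℝ).symm.hasFDerivAt).comp_hasDerivAt
    s hpi

end Vale.Agent.P247.Gen
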