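import Vale.Agent.P247.Gen.HomotopyParam
import Vale.Agent.P247.Gen.HomotopyLocal
import Vale.Agent.P204.Gen.AvgRep.Basic
import Vale.Agent.P204.Gen.ShiftX
import Vale.Agent.P204.Gen.GeoClosedIff

/-!
P247, general four-manifold: the averages of `P204` are homotopic to the identity on closed forms.

For a closed two-form `α` and small `ε` the average over the translations of one chart satisfies
`avg ε α - α = d (hom ε α)` with a smooth one-form supported in that chart.
-/

open MeasureTheory Set Filter Topology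
open scoped ContDiff

namespace Vale.Agent.P247.Gen

open Vale.Agent.P204 Vale.Agent.P204.Torus Vale.Agent.P204.Gen

/-- The law of the time and of the translation. -/
noncomputable def homMeasure (ε : ℝ) : Measure (ℝ × V) :=
  (volume.restrict (Icc (0 : ℝ) 1)).prod (AvgAux.rhoM ε)

lemma isFinite_homMeasure {ε : ℝ} (hε : 0 < ε) : IsFiniteMeasure (homMeasure ε) := by
  have := AvgAux.isProb_rhoM hε
  have : IsFiniteMeasure (volume.restrict (Icc (0 : ℝ) 1)) :=
    isFiniteMeasure_restrict.2 measure_Icc_lt_top.ne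
  unfold homMeasure
  infer_instance

lemma ae_homMeasure {ε : ℝ} (hε : 0 < ε) :
    ∀ᵐ p ∂homMeasure ε, p ∈ Icc (0 : ℝ) 1 ×ˢ Metric.closedBall (0 : V) ε := by
  have := AvgAux.isProb_rhoM hε
  have h1 : ∀ᵐ s ∂volume.restrict (Icc (0 : ℝ) 1), s ∈ Icc (0 : ℝ) 1 :=
    ae_restrict_mem measurableSet_Icc
  filter_upwards [Measure.quasiMeasurePreserving_fst.ae h1,
    Measure.quasiMeasurePreserving_snd.ae (AvgAux.ae_small hε)] with p hp1 hp2
  exact ⟨hp1, mem_closedBall_zero_iff.2 hp2⟩

variable {X : Type*} [TopologicalSpace X] [MeasurableSpace X] (G : Geo X)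

/-- The primitive in the chart `i`. -/
noncomputable def homLocal (i : Fin G.n) (ε : ℝ) (α : X → Form) (w : V) : V :=
  ∫ p, kh (G.χ i) (G.rep2 i α) p w ∂homMeasure ε

/-- The primitive of `avg ε α - α`. -/
noncomputable def hom (i : Fin G.n) (ε : ℝ) (α : X → Form) : X → V :=
  G.chart1 i (homLocal G i ε α)

lemma tsupport_homLocal (i : Fin G.n) (ε : ℝ) (α : X → Form) :
    tsupport (homLocal G i ε α) ⊆ tsupport (G.χ i) := by
  refine closure_mono fun w hw h => hw ?_
  simp [homLocal, kh_eq_zero _ _ h]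

lemma hasCompactSupport_homLocal (i : Fin G.n) (ε : ℝ) (α : X → Form) :
    HasCompactSupport (homLocal G i ε α) :=
  (G.χ_cpt i).isCompact.of_isClosed_subset (isClosed_tsupport _) (tsupport_homLocal G i ε α)

variable {G} {i : Fin G.n} {r ε : ℝ} {α : X → Form}

/-- The parameters for which the translation stays in the chart. -/
def homDom (r : ℝ) : Set (ℝ × V) := {p | ‖p.1 • p.2‖ < r}

lemma isOpen_homDom (r : ℝ) : IsOpen (homDom r) :=
  isOpen_lt (continuous_fst.smul continuous_snd).norm continuous_const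

lemma subset_homDom (hεr : ε < r) :
    Icc (0 : ℝ) 1 ×ˢ Metric.closedBall (0 : V) ε ⊆ homDom r := fun p hp => by
  refine lt_of_le_of_lt ?_ hεr
  change ‖p.1 • p.2‖ ≤ ε
  rw [norm_smul, Real.norm_eq_abs, abs_of_nonneg hp.1.1]
  exact (mul_le_of_le_one_left (norm_nonneg _) hp.1.2).trans (mem_closedBall_zero_iff.1 hp.2)

lemma mapsTo_shift (hP : G.Move i r (G.fwd i)) :
    ∀ p ∈ homDom r, ∀ w ∈ (G.φ i).target,
      Vale.Agent.P204.Gen.shift (G.χ i) (p.1 • p.2) w ∈ (G.φ i).target :=
  fun _ hp w hw => hP.maps _ w hp hw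

lemma contDiffOn_khX (hP : G.Move i r (G.fwd i)) (hα : G.Smooth2 α) :
    ContDiffOn ℝ ∞ (fun q : (ℝ × V) × V => kh (G.χ i) (G.rep2 i α) q.1 q.2)
      (homDom r ×ˢ (G.φ i).target) :=
  contDiffOn_kh (G.χ_smooth i) (G.φ i).open_target (hα i) (mapsTo_shift hP)

variable (hP : G.Move i r (G.fwd i)) (hα : G.Smooth2 α) (hε : 0 < ε) (hεr : ε < r)
include hP hα hε hεr

lemma contDiff_homLocal : ContDiff ℝ ∞ (homLocal G i ε α) := by
  have := isFinite_homMeasure hε
  refine contDiff_iff_contDiffAt.2 fun w => ?_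
  by_cases hw : w ∈ (G.φ i).target
  · exact (contDiffOn_integral_point (isOpen_homDom r) (G.φ i).open_target
      (isCompact_Icc.prod (isCompact_closedBall _ _)) (subset_homDom hεr) (ae_homMeasure hε)
      (contDiffOn_khX hP hα)).contDiffAt ((G.φ i).open_target.mem_nhds hw)
  · refine (contDiffAt_const (c := (0 : V))).congr_of_eventuallyEq ?_
    filter_upwards [(isClosed_tsupport _).isOpen_compl.mem_nhds fun h =>
      hw (G.χ_supp i (tsupport_homLocal G i ε α h))] with v hv
    exact image_eq_zero_of_notMem_tsupport hv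

theorem smooth1_hom [T2Space X] : G.Smooth1 (hom G i ε α) :=
  G.smooth1_chart1 (contDiff_homLocal hP hα hε hεr) (hasCompactSupport_homLocal G i ε α)
    ((tsupport_homLocal G i ε α).trans (G.χ_supp i))

lemma d1_homLocal (hcl : ∀ x ∈ (G.φ i).target, ∀ u v z, cyc (G.rep2 i α) x u v z = 0) {w : V}
    (hw : w ∈ (G.φ i).target) :
    d1 (homLocal G i ε α) w = (∫ t, rho ε t •
      pull (jac (G.χ i) t w) (G.rep2 i α (Vale.Agent.P204.Gen.shift (G.χ i) t w)))
      - G.rep2 i α w := by
  have := isFinite_homMeasure hε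
  have hpr := AvgAux.isProb_rhoM hε
  have hfr : IsFiniteMeasure (volume.restrict (Icc (0 : ℝ) 1)) :=
    isFiniteMeasure_restrict.2 measure_Icc_lt_top.ne
  set H : (ℝ × V) × V → V := fun q => kh (G.χ i) (G.rep2 i α) q.1 q.2
  have hH : ContDiffOn ℝ ∞ H (homDom r ×ˢ (G.φ i).target) := contDiffOn_khX hP hα
  have hK : IsCompact (Icc (0 : ℝ) 1 ×ˢ Metric.closedBall (0 : V) ε) :=
    isCompact_Icc.prod (isCompact_closedBall _ _)
  have hKS := subset_homDom (r := r) hεr
  have hpd := contDiffOn_pointDeriv (isOpen_homDom r) (G.φ i).open_target hH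
  set D : (ℝ × V) × V → Form := fun q => dL (pointDeriv H q) with hD
  have hDc : ContinuousOn D (homDom r ×ˢ (G.φ i).target) :=
    dL.continuous.comp_continuousOn hpd.continuousOn
  have hd : d1 (homLocal G i ε α) w = ∫ p, D (p, w) ∂homMeasure ε := by
    rw [d1_eq_dL, hD]
    change dL (fderiv ℝ (fun v => ∫ p, H (p, v) ∂homMeasure ε) w) = _
    rw [(hasFDerivAt_integral_point (isOpen_homDom r) (G.φ i).open_target hK hKS
      (ae_homMeasure hε) hH hw).fderiv, ← dL.integral_comp_comm
      (integrable_point hK hKS (ae_homMeasure hε) hpd.continuousOn hw)]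
  have hint : Integrable (fun p => D (p, w)) (homMeasure ε) :=
    integrable_point hK hKS (ae_homMeasure hε) hDc hw
  rw [hd, homMeasure, integral_prod_symm _ (by unfold homMeasure at hint; exact hint)]
  set g : V → ℝ → Form := fun t s =>
    pull (jac (G.χ i) (s • t) w) (G.rep2 i α (Vale.Agent.P204.Gen.shift (G.χ i) (s • t) w))
    with hg
  have hinner : ∀ᵐ t ∂AvgAux.rhoM ε,
      ∫ s in Icc (0 : ℝ) 1, D ((s, t), w) = g t 1 - g t 0 := by
    filter_upwards [AvgAux.ae_small hε] with t ht
    have hmem : ∀ s ∈ Icc (0 : ℝ) 1, (s, t) ∈ homDom r := fun s hs =>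
      hKS ⟨hs, mem_closedBall_zero_iff.2 ht⟩
    rw [integral_Icc_eq_integral_Ioc, ← intervalIntegral.integral_of_le zero_le_one]
    refine intervalIntegral.integral_eq_sub_of_hasDerivAt (fun s hs => ?_) ?_
    · rw [uIcc_of_le zero_le_one] at hs
      have hpt := hasFDerivAt_point (isOpen_homDom r) (G.φ i).open_target hH (hmem s hs) hw
      have h := hasDerivAt_pull_shift (G.χ_smooth i) (G.φ i).open_target (hα i) hcl
        (mapsTo_shift hP _ (hmem s hs) w hw) hpt.differentiableAt
      rw [d1_eq_dL] at h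
      simp only [hD, ← hpt.fderiv]
      exact h
    · refine ContinuousOn.intervalIntegrable ?_
      rw [uIcc_of_le zero_le_one]
      exact hDc.comp ((continuousOn_id.prodMk continuousOn_const).prodMk continuousOn_const)
        fun s hs => ⟨hmem s hs, hw⟩
  rw [integral_congr_ae hinner]
  have h0 : ∀ t, g t 0 = G.rep2 i α w := fun t => by
    simp [hg, jac, Gen.shift, pull_id]
  have h1 : ∀ t, g t 1 =
      pull (jac (G.χ i) t w) (G.rep2 i α (Vale.Agent.P204.Gen.shift (G.χ i) t w)) := fun t => by
    simp [hg]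
  simp only [h0, h1]
  rw [integral_sub ?_ (integrable_const _), integral_const, probReal_univ, one_smul,
    AvgAux.integral_rhoM]
  have hc : ContinuousOn (fun t => pull (jac (G.χ i) t w)
      (G.rep2 i α (Vale.Agent.P204.Gen.shift (G.χ i) t w))) (Metric.closedBall 0 ε) := by
    intro t ht
    have hj : ContinuousAt (fun τ => jac (G.χ i) τ w) t :=
      (continuousAt_const.add ((ContinuousLinearMap.smulRightL ℝ V V
        (fderiv ℝ (G.χ i) w)).continuous.continuousAt))
    have hs : ContinuousAt (fun τ => Vale.Agent.P204.Gen.shift (G.χ i) τ w) t :=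
      continuousAt_const.add (continuous_const_smul _).continuousAt
    have hm : Vale.Agent.P204.Gen.shift (G.χ i) t w ∈ (G.φ i).target :=
      hP.maps t w ((mem_closedBall_zero_iff.1 ht).trans_lt hεr) hw
    exact (AvgAux.continuous_pull.continuousAt.comp (f := fun τ => (jac (G.χ i) τ w,
      G.rep2 i α (Vale.Agent.P204.Gen.shift (G.χ i) τ w)))
      (hj.prodMk (ContinuousAt.comp (g := G.rep2 i α)
        (((hα i).continuousOn).continuousAt ((G.φ i).open_target.mem_nhds hm))
        hs))).continuousWithinAt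
  obtain ⟨C, hC⟩ := (isCompact_closedBall (0 : V) ε).exists_bound_of_continuousOn hc
  have hae : ∀ᵐ t ∂AvgAux.rhoM ε, t ∈ Metric.closedBall (0 : V) ε :=
    (AvgAux.ae_small hε).mono fun t ht => mem_closedBall_zero_iff.2 ht
  refine (integrable_const C).mono' ?_ (hae.mono fun t ht => hC t ht)
  have := hc.aestronglyMeasurable (μ := AvgAux.rhoM ε)
    (isCompact_closedBall (0 : V) ε).measurableSet
  rwa [Measure.restrict_eq_self_of_ae_mem hae] at this

/-- The average of a closed form differs from it by an exact form. -/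
theorem avg_sub_self_eq_d [T2Space X] [CompactSpace X] [BorelSpace X] (hc : G.WeakClosed α) :
    (fun x => G.avg i ε α x - α x) = G.d (hom G i ε α) := by
  funext x
  by_cases hx : x ∈ (G.φ i).source
  · set w := G.φ i x with hw'
    have hw : w ∈ (G.φ i).target := (G.φ i).map_source hx
    have hsm : G.Smooth1 (hom G i ε α) := smooth1_hom hP hα hε hεr
    have e2 : G.rep2 i (G.d (hom G i ε α)) w = d1 (homLocal G i ε α) w := by
      rw [G.rep2_d hsm hw, d1_eq_dL, d1_eq_dL]
      congr 1
      refine Filter.EventuallyEq.fderiv_eq ?_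
      filter_upwards [(G.φ i).open_target.mem_nhds hw] with v hv
      exact G.rep1_chart1 _ hv
    have hslice : ∀ t, ‖t‖ < r → G.rep2 i (G.pb (G.lift i (G.fwd i) t) α) w =
        pull (jac (G.χ i) t w) (G.rep2 i α (Vale.Agent.P204.Gen.shift (G.χ i) t w)) := by
      intro t ht
      have hj : G.lift i (G.fwd i) t ((G.φ i).symm w) ∈ (G.φ i).source :=
        hP.mem_source ht ((G.φ i).map_target hw)
      rw [hP.rep2_pb_slice ht hw hj, hP.chart ht ((G.φ i).map_target hw),
        (G.φ i).right_inv hw]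
      have he : (fun v => G.φ i (G.lift i (G.fwd i) t ((G.φ i).symm v))) =ᶠ[𝓝 w]
          fun v => Vale.Agent.P204.Gen.shift (G.χ i) t v := by
        filter_upwards [(G.φ i).open_target.mem_nhds hw] with v hv
        rw [hP.chart ht ((G.φ i).map_target hv), (G.φ i).right_inv hv]
        rfl
      rw [he.fderiv_eq, (hasFDerivAt_shift t
        (((G.χ_smooth i).differentiable (by simp)) w)).fderiv]
      rfl
    have e1 : G.rep2 i (G.avg i ε α) w = ∫ t, rho ε t •
        pull (jac (G.χ i) t w) (G.rep2 i α (Vale.Agent.P204.Gen.shift (G.χ i) t w)) := by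
      rw [G.avg_eq_avP i ε α, hP.rep2_avP hα hε hεr hw]
      refine integral_congr_ae (Eventually.of_forall fun t => ?_)
      by_cases ht : ‖t‖ < r
      · simp only [hslice t ht]
      · simp only [rho_eq_zero hε (hεr.le.trans (not_lt.1 ht)), zero_smul]
    have hcl : ∀ y ∈ (G.φ i).target, ∀ u v z, cyc (G.rep2 i α) y u v z = 0 :=
      fun y hy u v z => (G.weakClosed_iff hα).1 hc i y hy u v z
    rw [d1_homLocal hP hα hε hεr hcl hw, ← e1] at e2
    rw [G.eq_pull_rep2 (G.d (hom G i ε α)) hx, e2, G.eq_pull_rep2 (G.avg i ε α) hx,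
      G.eq_pull_rep2 α hx]
    simp only [← pullL_apply, map_sub, hw']
  · have hnot : x ∉ tsupport (hom G i ε α) := fun h => hx (G.tsupport_chart1_subset
      (hasCompactSupport_homLocal G i ε α)
      ((tsupport_homLocal G i ε α).trans (G.χ_supp i)) h)
    have h0 : G.d (hom G i ε α) x = 0 := G.d_zero_of_eventually
      (notMem_tsupport_iff_eventuallyEq.1 hnot)
    have hsup : x ∉ G.supX i := fun h => hx (G.supX_subset i h)
    have hav : ∀ t, ‖t‖ < r → G.pb (G.lift i (G.fwd i) t) α x = α x := by
      intro t ht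
      have he : ∀ᶠ y in 𝓝 x, G.lift i (G.fwd i) t y = y := by
        filter_upwards [(G.isCompact_supX i).isClosed.isOpen_compl.mem_nhds hsup] with y hy
        exact hP.eq_self ht hy
      have hxe := he.self_of_nhds
      have hm : G.mder (G.lift i (G.fwd i) t) x = G.mder id x := by
        have hsy : Tendsto (G.ch x).symm (𝓝 (G.ch x x)) (𝓝 x) := by
          have := (G.ch x).continuousAt_symm ((G.ch x).map_source (G.mem_ch x))
          rwa [ContinuousAt, (G.ch x).left_inv (G.mem_ch x)] at this
        simp only [Geo.mder, id_eq, hxe]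
        refine Filter.EventuallyEq.fderiv_eq ?_
        filter_upwards [hsy.eventually he] with v hv
        rw [hv]
      rw [Geo.pb, hm, hxe, G.mder_id, pull_id]
    change G.avg i ε α x - α x = _
    rw [h0, sub_eq_zero, G.avg_eq_avP i ε α]
    change ∫ t, rho ε t • G.pb (G.lift i (G.fwd i) t) α x = α x
    have : ∀ t, rho ε t • G.pb (G.lift i (G.fwd i) t) α x = rho ε t • α x := fun t => by
      by_cases ht : ‖t‖ < r
      · rw [hav t ht]
      · simp [rho_eq_zero hε (hεr.le.trans (not_lt.1 ht))]
    simp only [this, integral_smul_const, Vale.Agent.P204.Gen.integral_rho hε, one_smul]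

end Vale.Agent.P247.Gen
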