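import Mathlib

/-!
P247, general four-manifold: integrals over a compactly supported parameter are smooth in the
point, with derivatives under the integral.
-/

open MeasureTheory Set Filter Topology
open scoped ContDiff

namespace Vale.Agent.P247.Gen

variable {P W : Type} [NormedAddCommGroup P] [NormedSpace ℝ P] [MeasurableSpace P] [BorelSpace P]
  [SecondCountableTopology P] [NormedAddCommGroup W] [NormedSpace ℝ W] [FiniteDimensional ℝ W]
  {μ : Measure P} [IsFiniteMeasure μ] {K S : Set P} {U : Set W}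

/-- The derivative in the point. -/
noncomputable def pointDeriv {F : Type} [NormedAddCommGroup F] [NormedSpace ℝ F] (H : P × W → F)
    (p : P × W) : W →L[ℝ] F :=
  (fderiv ℝ H p).comp (ContinuousLinearMap.inr ℝ P W)

omit [MeasurableSpace P] [BorelSpace P] [SecondCountableTopology P] [FiniteDimensional ℝ W] in
lemma contDiffOn_pointDeriv {F : Type} [NormedAddCommGroup F] [NormedSpace ℝ F] {H : P × W → F}
    (hS : IsOpen S) (hU : IsOpen U) (hH : ContDiffOn ℝ ∞ H (S ×ˢ U)) :
    ContDiffOn ℝ ∞ (pointDeriv H) (S ×ˢ U) :=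
  (hH.fderiv_of_isOpen (hS.prod hU) (m := ∞) le_rfl).clm_comp contDiffOn_const

omit [MeasurableSpace P] [BorelSpace P] [SecondCountableTopology P] [FiniteDimensional ℝ W] in
lemma hasFDerivAt_point {F : Type} [NormedAddCommGroup F] [NormedSpace ℝ F] {H : P × W → F}
    (hS : IsOpen S) (hU : IsOpen U) (hH : ContDiffOn ℝ ∞ H (S ×ˢ U)) {p : P} (hp : p ∈ S) {u : W}
    (hu : u ∈ U) : HasFDerivAt (fun v => H (p, v)) (pointDeriv H (p, u)) u :=
  (((hH.contDiffAt ((hS.prod hU).mem_nhds ⟨hp, hu⟩)).differentiableAt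
    (by simp)).hasFDerivAt).comp u (hasFDerivAt_prodMk_right p u)

variable (hS : IsOpen S) (hU : IsOpen U) (hK : IsCompact K) (hKS : K ⊆ S)
  (hμ : ∀ᵐ p ∂μ, p ∈ K)

omit [SecondCountableTopology P] [FiniteDimensional ℝ W] in
include hK hKS hμ in
lemma integrable_point {F : Type} [NormedAddCommGroup F] [NormedSpace ℝ F]
    [SecondCountableTopologyEither P F] {H : P × W → F}
    (hH : ContinuousOn H (S ×ˢ U)) {u : W} (hu : u ∈ U) :
    Integrable (fun p => H (p, u)) μ := by
  have hc : ContinuousOn (fun p => H (p, u)) K :=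
    hH.comp (continuousOn_id.prodMk continuousOn_const) fun p hp => ⟨hKS hp, hu⟩
  obtain ⟨C, hC⟩ := hK.exists_bound_of_continuousOn hc
  have hm : AEStronglyMeasurable (fun p => H (p, u)) μ := by
    have := hc.aestronglyMeasurable (μ := μ) hK.measurableSet
    rwa [Measure.restrict_eq_self_of_ae_mem hμ] at this
  exact (integrable_const C).mono' hm (hμ.mono fun p hp => hC p hp)

include hS hU hK hKS hμ

theorem hasFDerivAt_integral_point {F : Type} [NormedAddCommGroup F] [NormedSpace ℝ F]
    [FiniteDimensional ℝ F] {H : P × W → F} (hH : ContDiffOn ℝ ∞ H (S ×ˢ U)) {u : W}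
    (hu : u ∈ U) :
    HasFDerivAt (fun v => ∫ p, H (p, v) ∂μ) (∫ p, pointDeriv H (p, u) ∂μ) u := by
  obtain ⟨r, hr, hrU⟩ := Metric.nhds_basis_closedBall.mem_iff.1 (hU.mem_nhds hu)
  obtain ⟨C, hC⟩ := (hK.prod (isCompact_closedBall u r)).exists_bound_of_continuousOn
    ((contDiffOn_pointDeriv hS hU hH).continuousOn.mono (prod_mono hKS hrU))
  refine hasFDerivAt_integral_of_dominated_of_fderiv_le (F' := fun v p => pointDeriv H (p, v))
    (bound := fun _ => C) (Metric.closedBall_mem_nhds u hr) ?_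
    (integrable_point hK hKS hμ hH.continuousOn hu)
    (integrable_point hK hKS hμ (contDiffOn_pointDeriv hS hU hH).continuousOn hu).1
    (hμ.mono fun p hp v hv => hC (p, v) ⟨hp, hv⟩) (integrable_const C)
    (hμ.mono fun p hp v hv => hasFDerivAt_point hS hU hH (hKS hp) (hrU hv))
  filter_upwards [hU.mem_nhds hu] with v hv
  exact (integrable_point hK hKS hμ hH.continuousOn hv).1

theorem contDiffOn_integral_point_nat (n : ℕ) :
    ∀ {F : Type} [NormedAddCommGroup F] [NormedSpace ℝ F] [FiniteDimensional ℝ F] {H : P × W → F},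
      ContDiffOn ℝ ∞ H (S ×ˢ U) → ContDiffOn ℝ n (fun u => ∫ p, H (p, u) ∂μ) U := by
  induction n with
  | zero =>
    intro F _ _ _ H hH
    exact contDiffOn_zero.2 fun u hu =>
      (hasFDerivAt_integral_point hS hU hK hKS hμ hH hu).continuousAt.continuousWithinAt
  | succ n ih =>
    intro F _ _ _ H hH
    push_cast
    rw [contDiffOn_succ_iff_fderiv_of_isOpen hU]
    refine ⟨fun u hu =>
      (hasFDerivAt_integral_point hS hU hK hKS hμ hH hu).differentiableAt.differentiableWithinAt,
      fun h => absurd h (by simp), ?_⟩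
    exact (ih (contDiffOn_pointDeriv hS hU hH)).congr fun u hu =>
      (hasFDerivAt_integral_point hS hU hK hKS hμ hH hu).fderiv

theorem contDiffOn_integral_point {F : Type} [NormedAddCommGroup F] [NormedSpace ℝ F]
    [FiniteDimensional ℝ F] {H : P × W → F} (hH : ContDiffOn ℝ ∞ H (S ×ˢ U)) :
    ContDiffOn ℝ ∞ (fun u => ∫ p, H (p, u) ∂μ) U :=
  contDiffOn_infty.2 fun n => contDiffOn_integral_point_nat hS hU hK hKS hμ n hH

end Vale.Agent.P247.Gen
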